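import Vale.Agent.P017.H185.Fam

/-!
# Finiteness of `X₀(15)(K)` from the class group of `K`

`X015` is the modular curve `X₀(15)`, with its Weierstrass equation
`y² + xy + y = x³ + x² - 10x - 10` over `ℚ` (the curve `15a1` of Cremona's tables).
-/

universe u

open NumberField Vale.Agent.P017.H185 in
/-- (1) Let `K` be an imaginary quadratic field in which `3` is not inert and `5` does not split (all
prime ideals above `5` are equal), and whose class group has no element of order four.  Then
`X₀(15)(K)` is finite.
(2) For every `n ≥ 1` there are infinitely many squarefree `d ≡ 23 mod 60` with exactly `n` prime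
factors such that `X₀(15)(ℚ(√-d))` is finite. -/
theorem Vale.Agent.Results.P017.ClassGroupCriterion.result :
    (∀ (K : Type u) [Field K] [NumberField K] [Algebra.IsQuadraticExtension ℚ K]
      [IsTotallyComplex K],
      ¬ (Ideal.span {(3 : 𝓞 K)}).IsPrime →
      (∀ P Q : Ideal (𝓞 K), P.IsPrime → Q.IsPrime → (5 : 𝓞 K) ∈ P → (5 : 𝓞 K) ∈ Q → P = Q) →
      (∀ c : ClassGroup (𝓞 K), orderOf c ≠ 4) →
      Finite (X015.baseChange K).toAffine.Point) ∧
    ∀ n : ℕ, 0 < n →
      {d : ℕ | Squarefree d ∧ d.primeFactors.card = n ∧ d % 60 = 23 ∧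
        ∀ (K : Type u) [Field K] [NumberField K] [Algebra.IsQuadraticExtension ℚ K] (θ : K),
          θ ^ 2 = -(d : K) → Finite (X015.baseChange K).toAffine.Point}.Infinite :=
  ⟨fun K _ _ _ _ h3 h5 hcl => criterion K h3 h5 hcl, fun _ hn => families hn⟩
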