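import Vale.Agent.P017.H185P.Final

/-!
# `X₀(15)(K)` is finite for a positive proportion of imaginary quadratic fields

`X015` is the modular curve `X₀(15)`, with its Weierstrass equation
`y² + xy + y = x³ + x² - 10x - 10` over `ℚ` (the curve `15a1` of Cremona's tables).
-/

universe u

open NumberField Vale.Agent.P017.H185 in
/-- There are `c > 0` and `N₀` such that for every `N ≥ N₀` at least `c N` of the integers
`1 ≤ d ≤ N` are squarefree, `≡ 23 mod 60`, and such that the imaginary quadratic field
`K = ℚ(√-d)` (every quadratic number field `K` containing a square root of `-d`) has no class of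
order four in its class group and has `X₀(15)(K)` finite. -/
theorem Vale.Agent.Results.P017.PositiveProportion.result :
    ∃ c : ℝ, 0 < c ∧ ∃ N₀ : ℕ, ∀ N : ℕ, N₀ ≤ N →
      c * N ≤ ({d : ℕ | 1 ≤ d ∧ d ≤ N ∧ Squarefree d ∧ d % 60 = 23 ∧
        ∀ (K : Type u) [Field K] [NumberField K] [Algebra.IsQuadraticExtension ℚ K] (θ : K),
          θ ^ 2 = -(d : K) → (∀ x : ClassGroup (𝓞 K), orderOf x ≠ 4) ∧
            Finite (X015.baseChange K).toAffine.Point}.ncard : ℝ) :=
  Vale.Agent.P017.PP.positive_proportion
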